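import Vale.Agent.H5P302.Fit

namespace Vale.Agent.Results.P302.SmallValues

open Finset Vale.Agent.H5P302

/-- in the packing with one bin for each item every bin is fine -/
lemma single_bin {n : ℕ} {a : Fin n → ℚ} (h1 : ∀ i, a i ≤ 1) (b : ℕ) :
    ∑ i ∈ univ.filter (fun i : Fin n => (i : ℕ) = b), a i ≤ 1 := by
  have h2 : (univ.filter fun i : Fin n => (i : ℕ) = b).card ≤ 1 := by
    rw [card_le_one]
    intro i hi j hj
    rw [mem_filter] at hi hj
    exact Fin.ext (hi.2.trans hj.2.symm)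
  calc ∑ i ∈ univ.filter (fun i : Fin n => (i : ℕ) = b), a i
      ≤ ∑ _i ∈ univ.filter (fun i : Fin n => (i : ℕ) = b), (1 : ℚ) :=
        sum_le_sum fun i _ => h1 i
    _ = ((univ.filter fun i : Fin n => (i : ℕ) = b).card : ℚ) := by
        rw [sum_const, nsmul_eq_mul, mul_one]
    _ ≤ 1 := by exact_mod_cast h2

/-- The modified integer round-up conjecture `OPT(I) ≤ ⌈LP(I)⌉ + 1` holds for every bin packing
instance with `LP(I) ≤ 3`; the integer round-up property holds for every instance whose items are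
all larger than `1/3`; and `OPT(I) ≤ ⌈LP(I)⌉ + 1` holds as soon as the items larger than
`1/⌈LP(I)⌉` can be packed into `⌈LP(I)⌉ + 1` bins.  (Here `v` is the value of any feasible solution
of the configuration linear program, in particular its minimum `LP(I)`.) -/
theorem result (n : ℕ) (a : Fin n → ℚ) (h0 : ∀ i, 0 < a i) (h1 : ∀ i, a i ≤ 1) :
    Packs a univ (OPT a) ∧
    (∀ v : ℝ, IsLPValue a v → v ≤ 3 → OPT a ≤ ⌈v⌉₊ + 1) ∧
    ((∀ i, 1 / 3 < a i) → ∀ v : ℝ, IsLPValue a v → OPT a ≤ ⌈v⌉₊) ∧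
    (∀ v : ℝ, IsLPValue a v → 0 < v → ∀ B : Finset (Fin n),
      (∀ i, i ∉ B → a i ≤ 1 / (⌈v⌉₊ : ℚ)) → Packs a B (⌈v⌉₊ + 1) → OPT a ≤ ⌈v⌉₊ + 1) := by
  refine ⟨?_, fun v hv h3 => mirup_three h0 h1 hv h3, fun hs v hv => ?_,
    fun v hv hpos B hB hP => reduction h0 hv hpos B hB hP⟩
  · have hne : {k : ℕ | Packs a univ k}.Nonempty := by
      refine ⟨n, fun i => (i : ℕ), fun i _ => i.2, fun b => ?_⟩
      exact single_bin h1 b
    exact Nat.sInf_mem hne
  · exact OPT_le (roundup h0 h1 hv univ fun i _ => hs i)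

end Vale.Agent.Results.P302.SmallValues
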